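import Vale.Agent.P287D.Pr.Ls
import Vale.Agent.P287D.Ad.Main

/-!
# P287D, row TRK: log smooth models with smooth components
-/

set_option linter.all false

open Set
open Vale.Agent.P297 (Place)
open Vale.Agent.P277Z Vale.Agent.P277Z.FI Vale.Agent.P277Z.F5

noncomputable section

namespace Vale.Agent.P287D.Tj

open Ba Pr

variable {n : ℕ} {K : Type} [Field K] [Algebra ℂ K]

theorem klt_sm {M : Mdl (n + 1) 0 K} (hM : M.Proj) {P : Pl K} (hP : M.Snc {P.toPlace}) :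
    Klt n (adj n P (bar M (KM M) + bar M (Finsupp.single P.toPlace 1))) := fun Q => by
  obtain ⟨S, s, hS, hs, hR⟩ := Bm.sub hM P hP
  have k := adj_bar hM hP s hS hs (B := 0) rfl
  have z : s.rs 0 = 0 := by simpa using rs_smul hR 0 (D := 0) rfl
  rw [add_zero, map_add, z, add_zero] at k
  rw [k]
  exact neg_one_lt_zero.trans_le (disc_nonneg hS Q)

/-- **log resolution**: the components are smooth -/
theorem exists_lsk (hK : FF K (n + 1)) {T₀ : Set (Pl K)} (hT : T₀.Finite) {B : Set (BD K)}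
    (hB : B.Finite) (hc : ∀ β ∈ B, β ∈ Car K) :
    ∃ (s : Finset K) (κ : BD K) (T : Finset (Pl K)) (h : Pl K → BD K), LS n (mx s) κ T h ∧
      (∀ P ∈ T₀, P ∈ T) ∧ Sup n (mx s) T κ ∧ (∀ β ∈ B, Sup n (mx s) T β) ∧
      ∀ P ∈ T, Klt n (adj n P (κ + h P)) := by
  classical
  obtain ⟨M₀, h₀⟩ := Bm.exists_mdl hK
  obtain ⟨M, m, U, hM, u1, u2, u3, u4, u5, u6⟩ := com h₀ hB hc hT (KM M₀).support.finite_toSet
  obtain ⟨H, s, hH, hs, -⟩ := exists_pol hM
  have f1 := u1.preimage (pl_inj (K := K)).injOn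
  have k1 : ∀ P : Pl K, KM M P.toPlace ≠ 0 → P ∈ f1.toFinset := fun P hP => f1.mem_toFinset.2 (by
    have p := KM_dv hM _ (Finsupp.mem_support_iff.2 hP)
    by_cases k : M₀.Pr P.toPlace
    · exact u5 _ (Finsupp.mem_support_iff.2 (by rwa [← KM_pr h₀ k, KM_pr hM p])) p
    · exact u3 ⟨p, k⟩)
  have k2 : ∀ β ∈ B, Sup n (mx s) f1.toFinset β := fun β hβ => by
    obtain ⟨E, -, rfl, b, -⟩ := u6 β hβ
    exact hs ▸ sup_of hM hH fun P hP => f1.mem_toFinset.2 (b (Finsupp.mem_support_iff.2 hP))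
  exact ⟨s, _, f1.toFinset, _, hs ▸ ls_of hM hH u2 fun P hP => f1.mem_toFinset.1 hP,
    fun P hP => f1.mem_toFinset.2 (u4 P hP), hs ▸ sup_of hM hH k1, k2, fun P hP =>
      klt_sm hM (snc_mono u2 (singleton_subset_iff.2 (f1.mem_toFinset.1 hP)))⟩

end Vale.Agent.P287D.Tj
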