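import Vale.Agent.P287D.Tj.Wal
import Vale.Agent.P287D.Mm.Mft

/-!
# P287D, row TRK: the induction principle SETI
-/

set_option linter.all false

open Set

noncomputable section

namespace Vale.Agent.P287D.Tj

open Mm Tk

variable {K : Type} [Field K] [Algebra ℂ K] {n : ℕ} {Y G b Ω κ : BD K} {E : Pl K}
  {T : Finset (Pl K)} {v : Pl K → BD K}

theorem sum_nn (l : LS n Ω κ T v) : 0 ≤ ∑ P ∈ T, v P :=
  Finset.sum_nonneg fun P hP => l.nn (l.on P hP)

theorem sum_dsc (l : LS n Ω κ T v) : Dsc Ω (∑ P ∈ T, v P) :=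
  .sum l.smp T fun P hP => (l.hull P (l.on P hP)).1

/-- log smooth pairs with a reduced boundary -/
theorem pre (l : LS n Ω κ T v) : Pre n Ω (κ + ∑ P ∈ T, v P) := fun A hA => by
  obtain ⟨ε, e, k⟩ := hA.opn (sum_dsc l)
  have m0 := lt_min e one_pos
  have m1 := min_le_right ε 1
  refine ⟨κ + (1 - min ε 1) • ∑ P ∈ T, v P, l.term.hull.1.add ((sum_dsc l).smul _), fun R => ?_,
    fun R r => ?_, ?_⟩
  · have a := l.snc R
    have c := l.dn R
    rw [Pr.dsc_add_smul, Finset.sum_apply]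
    nlinarith
  · rw [Pr.dsc_add_smul, l.d0 r, zero_sub]
    exact neg_nonpos.2 (mul_nonneg (sub_nonneg.2 m1) (sum_nn l R))
  · convert k _ ((abs_of_pos m0).trans_le (min_le_left _ _)) using 1
    module

theorem exists_su (run : RUN) (hK : FF K 4) (t : Term 3 Y G) (q : QF 3 Y) (o : On 3 Y E)
    (hb : Hull 3 Y E.δ b) : ∃ T Ω κ v U A s, ∃ (m δ : ℝ), ∃ o D k τ Φ,
      Su Y G b E T Ω κ v U A (m • mx s) δ o ∧ 0 < m ∧ Run 3 Ω U D (v E) (mx s) k τ Φ ∧
      τ 1 + δ < 1 ∧ ∀ t : ℝ, D + t • v E = pth κ T v E A (m • mx s) (t + δ) := by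
  classical
  obtain ⟨s, -, hs⟩ := t.smp.exists_ampOn
  obtain ⟨w, κ, T₀, v, l₀, e0, c0, d0, k0⟩ := exists_lsk hK (finite_singleton E)
    (toFinite {G, Y}) (forall_mem_insert.2 ⟨t.hull.1.car, forall_eq.2 t.smp.car⟩)
  have dY := (d0 Y (.inr rfl)).1
  have up : ∀ P, On 3 Y P → On 3 (mx w) P := fun P => on_mono res' hK t.smp dY
  have kG : ∀ P, On 3 (mx w) P → dsc 4 G P = κ P - G P := fun P a =>
    congrArg (· - G P) (l₀.term.hull.2 P a).symm
  obtain ⟨T, iff⟩ : ∃ T : Finset (Pl K), ∀ P, P ∈ T ↔ P ∈ T₀ ∧ ¬ On 3 Y P :=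
    ⟨_, fun P => Finset.mem_filter⟩
  have iff' : ∀ P, P ∈ T ↔ On 3 (mx w) P ∧ ¬ On 3 Y P := fun P => (iff P).trans
    (and_congr_left fun a => ⟨l₀.on P, fun c => by_contra fun d => (t.pos P a).ne' (by
      rw [kG P c, c0.2 P c d, (d0 G (.inl rfl)).2 P c d, sub_zero])⟩)
  have eT : E ∉ T := fun a => ((iff E).1 a).2 o
  have sb : insert E T ⊆ T₀ := Finset.insert_subset (e0 E rfl) fun P a => ((iff P).1 a).1
  have l := l₀.mono sb
  have lT := l.mono (Finset.subset_insert E T)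
  have lE := l.hull E (up E o)
  obtain ⟨F, -, F1, -, F3⟩ := neg'.exa 3 K hK Y _ t.smp t.big l.smp dY q
  obtain ⟨ε, he, e⟩ : ∃ ε : ℝ, (∀ P ∈ T, 2 * ε * F P < dsc 4 G P / 2) ∧ 0 < ε :=
    ((eventually_nhdsWithin_of_eventually_nhds ((Filter.eventually_all_finset T).2 fun P a =>
      (show ContinuousAt (fun ε : ℝ => 2 * ε * F P) 0 by fun_prop).eventually_lt continuousAt_const
        (by simpa using t.pos P ((iff P).1 a).2))).and
      (eventually_mem_nhdsWithin (s := Ioi 0))).exists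
  have a0 := F3.smul e
  obtain ⟨U, hU, sub⟩ := exists_sp l.smp l.big
    (S := insert κ (insert (mx s) (insert (ε • (Y - F)) (v '' (insert E T : Finset (Pl K))))))
    (toFinite _) (forall_mem_insert.2 ⟨l.term.hull.1, forall_mem_insert.2 ⟨dY.trans hs.1,
      forall_mem_insert.2 ⟨a0.1, forall_mem_image.2 fun P a => (l.hull P (l.on P a)).1⟩⟩⟩)
  have kU : κ ∈ U := sub (.inl rfl)
  have sU : mx s ∈ U := sub (.inr (.inl rfl))
  have vU : ∀ P ∈ insert E T, v P ∈ U := fun P a => sub (.inr (.inr (.inr ⟨P, a, rfl⟩)))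
  have eU := vU E (Finset.mem_insert_self _ _)
  obtain ⟨m₀, -, hm⟩ := (hs.dsc_iff.1 t.hull.1).exists_add
  have gk : G ≤ κ := sub_nonneg.1 (l.hart _ (l.term.hull.1.sub (dY.trans t.hull.1)) fun P a =>
    (sub_nonneg.2 (term_le t P)).trans_eq (kG P a))
  have p1 : Eff (κ + ∑ P ∈ T, v P + max m₀ 5 • mx s) := (hm _ (le_max_left _ _)).eff.mono
    (add_le_add_left (gk.trans (le_add_of_nonneg_right (sum_nn lT))) _)
  obtain ⟨A, aU, a1, a2, k, τ, Φ, r⟩ := run 3 K hK _ (κ + ∑ P ∈ T, v P) (v E) _ U s (max m₀ 5) hU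
    (add_mem kU (sum_mem fun P a => vU P (Finset.mem_insert_of_mem a))) eU
    (sub (.inr (.inr (.inl rfl)))) sU a0 (pre lT)
    (by simpa only [Finset.sum_insert eT, add_assoc, add_comm (v E)] using pre l)
    (le_trans (by norm_num) (le_max_right _ _)) p1.psef
    (p1.mono (add_le_add_left (le_add_of_nonneg_right (l.nn (up E o))) _)).psef
  obtain ⟨π, hπ⟩ := Pr.exists_hull res' hK t.smp t.big q ((Pr.isb 3 K hK).1 A a1.car)
  have le := le_hull neg' hK t.big a2.nef ((((Dsc.refl t.smp).smul ε).smul 2).sub hπ.1)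
    fun P a => by simp [F1 P a, hπ.2 P a]
  obtain ⟨ε₁, e₁, op⟩ := a1.opn lE.1
  have t1 : τ 1 < 1 := r.top ▸ r.lt 0 r.pos
  have z0 : 0 < min ε₁ ((1 - τ 1) / 2) := lt_min e₁ (by linarith)
  have z1 := min_le_right ε₁ ((1 - τ 1) / 2)
  have m0 : 0 < max m₀ 5 := lt_max_of_lt_right (by norm_num)
  generalize hδ : min ε₁ ((1 - τ 1) / 2) = δ at z0 z1
  have a3 := op (-δ) (by rw [abs_neg, abs_of_pos z0, ← hδ]; exact min_le_left _ _)
  refine ⟨T, _, κ, v, U, A + -δ • v E, s, max m₀ 5, δ, π - A, _, k, τ, Φ, ⟨l, fun P a => k0 P (sb a),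
    iff', eT, kU, vU, add_mem aU (U.smul_mem _ eU), U.smul_mem _ sU, a3.smp, hs.smul m0, t.big, z0,
    fun P a => ⟨t.pos P ((iff P).1 a).2, ?_⟩, fun u => ?_⟩, m0, r, by linarith, fun t => ?_⟩
  · have x := le P
    have y := he P a
    simp only [Pi.sub_apply, Pi.smul_apply, smul_eq_mul] at x ⊢
    linarith
  · have dH := ((t.hull.1.add (hb.1.smul (u - δ))).add hπ.1).add ((hs.smul m0).1)
    have sm : ∀ Q, On 3 (mx w) Q → (∑ P ∈ T, v P) Q = if Q ∈ T then 1 else 0 := by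
      simpa only [one_smul] using (lT.hull_sum fun _ => 1).2
    refine ⟨_, dH, sub_eq_iff_eq_add'.1 ((lT.exp ⟨?_, fun P a c => ?_⟩).trans
      (Finset.sum_congr rfl fun P a => congrArg (· • v P) ?_))⟩
    · exact ((((l.term.hull.1.add (sum_dsc lT)).add (lE.1.smul u)).add a3.1).add
        (dY.trans (hs.smul m0).1)).sub (dY.trans dH)
    · have y : On 3 Y P := by_contra fun y => c ((iff' P).2 ⟨a, y⟩)
      simp only [pth, Pi.sub_apply, Pi.add_apply, Pi.smul_apply, smul_eq_mul, sm P a, if_neg c,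
        l.term.hull.2 P a, t.hull.2 P y, lE.2 P a, hb.2 P y, hπ.2 P y]
      ring
    · have y := lT.on P a
      simp only [pth, Pi.sub_apply, Pi.add_apply, Pi.smul_apply, smul_eq_mul, sm P y, if_pos a,
        kG P y, lE.2 P y, Pl.δ_ne (show P ≠ E from fun c => eT (c ▸ a))]
      ring
  · simp only [pth]
    module

theorem seti_of (run : RUN) : SETI := by
  intro K _ _ hK Y G b E t q o hb S mon sta stp
  obtain ⟨T, Ω, κ, v, U, A, s, m, δ, o', D, k, τ, Φ, su, m0, r, t1, e⟩ := exists_su run hK t q o hb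
  have nn : ∀ i ≤ k, 0 ≤ τ i := fun i hi => by
    induction hi using Nat.decreasingInduction with
    | self => exact r.bot.ge
    | of_succ i a ih => exact ih.trans (r.lt i a).le
  have wl : ∀ i < k, ∀ ε, 0 < ε → τ (i + 1) + ε < τ i → τ (i + 1) + δ + ε ≤ 1 → ∃ H,
      Wall Y G b E T (Φ i (D + τ (i + 1) • v E)) (Φ i κ) (Φ i A - A) (A + m • mx s) H
        (fun P => Φ i (v P)) (τ (i + 1) + δ) ε
        fun P => dsc 4 G P + 1 - (τ (i + 1) + δ - δ) * b P - o' P := fun i hi ε a c d => by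
    obtain ⟨w1, w2⟩ := r.wl i hi _ le_rfl (r.lt i hi).le
    have w3 := r.chm i hi _ (lt_add_of_pos_right _ a) c
    have w4 := w1.zd
    rw [e] at w2 w3 w4 ⊢
    rw [add_right_comm] at w3
    exact su.wall hK (le_add_of_nonneg_left (nn _ hi)) a d w3 w4 (w2.smul m)
  have x : ∀ i (t ε : ℝ), Φ i (D + t • v E) + ε • Φ i (v E) = Φ i (D + (t + ε) • v E) :=
    fun i t ε => by rw [add_smul, ← add_assoc, map_add _ _ (ε • _), map_smul]
  have ind : ∀ i < k, ∃ ε, 0 < ε ∧ τ (i + 1) + ε < τ i ∧ τ (i + 1) + δ + ε ≤ 1 ∧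
      S (Φ i (D + τ (i + 1) • v E) + ε • Φ i (v E)) := fun i => by
    induction i with
    | zero =>
      intro hi
      have a : 0 < 1 - (τ (0 + 1) + δ) := sub_pos.2 t1
      have c : τ (0 + 1) + (1 - (τ (0 + 1) + δ)) < τ 0 := by rw [r.top]; linarith [su.d0]
      obtain ⟨H, w⟩ := wl 0 hi _ a c (by linarith)
      have w3 := r.chm 0 hi _ (lt_add_of_pos_right _ a) c
      have dY := w.des.trans w.desY
      refine ⟨_, a, c, by linarith, sta _ _ _ (w.des.big w.big) dY w.kh w.he ?_⟩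
      have f : D + (τ (0 + 1) + (1 - (τ (0 + 1) + δ))) • v E = pth κ T v E A (m • mx s) 1 := by
        rw [e]; congr 1; ring
      have o1 := on_mono res' hK t.smp dY o
      have dM := dY.trans su.amp.1
      simp only [x, f] at o1 dM w3
      exact su.start hK (w3.fix _ su.mU dM) w3 o1
    | succ i ih =>
      intro hi
      obtain ⟨ε, a, c, d, f⟩ := ih (Nat.lt_of_succ_lt hi)
      obtain ⟨H, w⟩ := wl i (Nat.lt_of_succ_lt hi) ε a c d
      have g := r.lt _ hi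
      have z := Ge.zd_uniq (r.wl i (Nat.lt_of_succ_lt hi) _ le_rfl (by linarith)).1.zd
        (r.wl _ hi _ g.le le_rfl).1.zd (by simp)
      have w3 := r.chm _ hi (τ (i + 1 + 1) + (τ (i + 1) - τ (i + 1 + 1)) / 2) (by linarith)
        (by linarith)
      refine ⟨(τ (i + 1) - τ (i + 1 + 1)) / 2, by linarith, by linarith, by linarith,
        mon _ _ ?_ (stp _ _ _ _ _ _ _ _ _ _ w f)⟩
      rw [x, sub_right_inj.1 z]
      exact w3.des _ (e _ ▸ su.mem _)
  obtain ⟨i, rfl⟩ := Nat.exists_eq_succ_of_ne_zero r.pos.ne'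
  obtain ⟨ε, a, c, d, f⟩ := ind i i.lt_succ_self
  obtain ⟨H, w⟩ := wl i i.lt_succ_self ε a c d
  refine ⟨_, _, _, _, _, _, _, _, _, _, w, f, fun P hP => ?_⟩
  obtain ⟨p1, p2⟩ := su.ob P hP
  rw [r.bot, zero_add, sub_self, zero_mul]
  linarith

end Vale.Agent.P287D.Tj
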