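import Vale.Agent.P287D.Tj.Ls
import Vale.Agent.P287D.Tk.St
import Vale.Agent.P287D.Mm.Eng
import Vale.Agent.P287D.Pr.Lr

/-!
# P287D, row TRK: the chambers and walls of the program with scaling of `E`
-/

set_option linter.all false

open Set

noncomputable section

namespace Vale.Agent.P287D.Tj

open Mm Tk

variable {K : Type} [Field K] [Algebra ℂ K]

/-- the classes along the path -/
def pth (κ : BD K) (T : Finset (Pl K)) (v : Pl K → BD K) (E : Pl K) (A M : BD K) (u : ℝ) : BD K :=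
  κ + ∑ P ∈ T, v P + u • v E + A + M

open Classical in
/-- the set-up on a log resolution `V Ω` of `(V Y, E)` -/
structure Su (Y G b : BD K) (E : Pl K) (T : Finset (Pl K)) (Ω κ : BD K) (v : Pl K → BD K)
    (U : Submodule ℝ (BD K)) (A M : BD K) (δ : ℝ) (o : Pl K → ℝ) : Prop where
  ls : LS 3 Ω κ (insert E T) v
  klt : ∀ P ∈ insert E T, Klt 3 (adj 3 P (κ + v P))
  iff : ∀ P, P ∈ T ↔ On 3 Ω P ∧ ¬ On 3 Y P
  eT : E ∉ T
  kU : κ ∈ U
  vU : ∀ P ∈ insert E T, v P ∈ U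
  aU : A ∈ U
  mU : M ∈ U
  smp : Smp A
  amp : AmpOn Y M
  big : Big Y
  d0 : 0 < δ
  ob : ∀ P ∈ T, 0 < dsc 4 G P ∧ o P ≤ dsc 4 G P / 2
  dec : ∀ u, ∃ H, Dsc Y H ∧ pth κ T v E A M u =
    H + ∑ P ∈ T, (dsc 4 G P + 1 - (u - δ) * b P - o P) • v P

variable {Y G b Ω κ A M Γ L N : BD K} {E P : Pl K} {T : Finset (Pl K)} {v : Pl K → BD K}
  {U : Submodule ℝ (BD K)} {δ u ε : ℝ} {o : Pl K → ℝ} {Φ : BD K →ₗ[ℝ] BD K}

theorem pth_add (u ε : ℝ) : pth κ T v E A M (u + ε) = pth κ T v E A M u + ε • v E := by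
  simp only [pth, add_smul]; abel

/-- adjunction for a pair which is plt where it is not better than the lc pair `L` -/
theorem klt_core (hK : FF K 4) {Γ₀ : BD K} (h0 : Γ₀ ∈ Car K) (h : Γ ∈ Car K)
    (k0 : Klt 3 (adj 3 P Γ₀)) (e0 : dsc 4 Γ₀ P = -1) (e : dsc 4 Γ P = -1) (lc : Lc 4 L)
    (n0 : 0 ≤ N) (le : Γ ≤ L - N) (eq : ∀ R, N R = 0 → Γ R = L R → Γ R ≤ Γ₀ R) :
    Klt 3 (adj 3 P Γ) := fun Q => by
  obtain ⟨R, -, -, -, -, k⟩ := a2 3 K hK P Q {Γ, Γ₀} 0 0 (toFinite _)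
    (insert_subset h (singleton_subset_iff.2 h0)) (zero_mem _)
  have k1 := k Γ (.inl rfl)
  have k2 := k Γ₀ (.inr rfl)
  rw [e, neg_add_cancel, zero_mul, add_zero] at k1
  rw [e0, neg_add_cancel, zero_mul, add_zero] at k2
  have a := k0 Q
  have b := lc R
  have c : Γ R ≤ L R - N R := le R
  have d : 0 ≤ N R := n0 R
  rw [k2] at a
  rw [k1]
  simp only [dsc, Pi.sub_apply] at a b ⊢
  by_contra f
  have := eq R (by linarith) (by linarith)
  linarith

namespace Su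

variable (s : Su Y G b E T Ω κ v U A M δ o)
include s

theorem tU (hP : P ∈ T) : v P ∈ U := by
  classical
  exact s.vU P (Finset.mem_insert_of_mem hP)

theorem eU : v E ∈ U := by
  classical
  exact s.vU E (Finset.mem_insert_self _ _)

theorem onT (hP : P ∈ T) : On 3 Ω P := ((s.iff P).1 hP).1

theorem onE : On 3 Ω E := by
  classical
  exact s.ls.on E (Finset.mem_insert_self _ _)

theorem mem (u : ℝ) : pth κ T v E A M u ∈ U :=
  add_mem (add_mem (add_mem (add_mem s.kU (sum_mem fun _ => s.tU)) (U.smul_mem _ s.eU)) s.aU) s.mU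

theorem lc (h0 : 0 ≤ u) (h1 : u ≤ 1) : Lc 4 (κ + ∑ P ∈ T, v P + u • v E) := fun R => by
  classical
  have a := s.ls.snc R
  have b : 0 ≤ v E R := s.ls.nn s.onE R
  rw [Finset.sum_insert s.eT] at a
  simp only [dsc, Pi.sub_apply, Pi.add_apply, Pi.smul_apply, smul_eq_mul, Finset.sum_apply] at a ⊢
  nlinarith

theorem phi (hM : Φ M = M) (u : ℝ) : Φ (pth κ T v E A M u) =
    Φ κ + ∑ P ∈ T, Φ (v P) + u • Φ (v E) + (Φ A - A) + (A + M) := by
  simp only [pth, map_add, map_sum, map_smul, hM]; abel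

theorem sub (hM : Φ M = M) (u : ℝ) : Φ κ + ∑ P ∈ T, Φ (v P) + u • Φ (v E) + (Φ A - A) =
    κ + ∑ P ∈ T, v P + u • v E - (pth κ T v E A M u - Φ (pth κ T v E A M u)) := by
  rw [s.phi hM, pth]; abel

variable (hK : FF K 4) {D : BD K} (c : Chm 3 Ω U Φ D)
include hK c

theorem hull (hP : On 3 Ω P) (hU : v P ∈ U) : Hull 3 (Φ D) P.δ (Φ (v P)) :=
  c.hull' hU (s.ls.hull P hP)

theorem nn (hP : On 3 Ω P) (hU : v P ∈ U) : 0 ≤ Φ (v P) :=
  Pr.hart res' hK c.smp c.big (c.des _ hU) fun Q hQ => (s.hull hK c hP hU).2 Q hQ ▸ P.δ_nonneg Q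

theorem b0 : 0 ≤ Φ A - A := sub_nonneg.2 (c.nef A s.aU s.smp.nef)

theorem one (hP : On 3 Ω P) : dsc 4 (κ + v P) P = -1 := by
  rw [Pr.dsc_add, s.ls.d0 hP, (s.ls.hull P hP).2 P hP, P.δ_self, zero_sub]

end Su

theorem Su.start (s : Su Y G b E T Ω κ v U A M δ o) (hK : FF K 4) (hM : Φ M = M)
    (c : Chm 3 Ω U Φ (pth κ T v E A M 1)) (hE : On 3 (Φ (pth κ T v E A M 1)) E) :
    Klt 3 (adj 3 E (Φ κ + Φ (v E))) := by
  classical
  have e := (c.on E).1 hE
  refine klt_core hK (add_mem (CarZ.car s.ls.kz) (CarZ.car (s.ls.hz E)))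
    (add_mem (c.des _ s.kU).car (c.des _ s.eU).car) (s.klt E (Finset.mem_insert_self _ _))
    (s.one hK c s.onE) ?_ (s.lc zero_le_one le_rfl) (sub_nonneg.2 c.le) ?_ fun R a _ => ?_
  · rw [← s.one hK c s.onE]
    simp only [dsc, Pi.sub_apply, Pi.add_apply, c.tr _ s.kU E e.2, c.tr _ s.eU E e.2]
  · rw [← s.sub hM, one_smul, add_right_comm (Φ κ), add_assoc (Φ κ + _)]
    exact le_add_of_nonneg_right (add_nonneg
      (Finset.sum_nonneg fun P hP => s.nn hK c (s.onT hP) (s.tU hP)) (s.b0 hK c))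
  · have a' := (sub_eq_zero.1 a).symm
    simp only [Pi.add_apply, c.tr _ s.kU R a', c.tr _ s.eU R a', le_refl]

theorem Su.wall (s : Su Y G b E T Ω κ v U A M δ o) (hK : FF K 4) (hu : δ ≤ u) (he : 0 < ε)
    (h1 : u + ε ≤ 1) (c : Chm 3 Ω U Φ (pth κ T v E A M (u + ε)))
    (z : ZD (pth κ T v E A M u) (pth κ T v E A M u - Φ (pth κ T v E A M u)))
    (d : Dsc (Φ (pth κ T v E A M u)) M) :
    ∃ H, Wall Y G b E T (Φ (pth κ T v E A M u)) (Φ κ) (Φ A - A) (A + M) H (fun P => Φ (v P)) u ε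
      fun P => dsc 4 G P + 1 - (u - δ) * b P - o P := by
  classical
  have u0 := s.d0.trans_le hu
  have x : Φ (pth κ T v E A M u) + ε • Φ (v E) = Φ (pth κ T v E A M (u + ε)) := by
    rw [pth_add, map_add, map_smul]
  have d1 := c.des _ (s.mem u)
  have hM := c.fix M s.mU (d1.trans d)
  have dY := d.trans s.amp.dsc'
  obtain ⟨H, h2, h3⟩ := s.dec u
  have hH : H ∈ U := by
    rw [← sub_eq_iff_eq_add] at h3
    exact h3 ▸ sub_mem (s.mem u) (sum_mem fun P hP => U.smul_mem _ (s.tU hP))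
  have nE := s.nn hK c s.onE s.eU
  refine ⟨H, u0, he, by simpa using z.smp, dY.big s.big, x ▸ d1, dY, fun P hP => ((s.iff P).1 hP).2,
    fun P hP => ?_, x ▸ c.hull' s.kU s.ls.term.hull, fun P hP => x ▸ s.hull hK c (s.onT hP) (s.tU hP),
    x ▸ s.hull hK c s.onE s.eU, s.b0 hK c, sub_mem (c.des _ s.aU).car s.smp.car, fun P hP => ?_,
    s.smp.add s.amp.smp, s.phi hM u, fun R => ?_, fun P hP hO η h4 => ?_, h2, ?_,
    fun P hP a e => ?_⟩
  · rw [x] at hP
    exact or_iff_not_imp_left.2 fun a => (s.iff P).2 ⟨((c.on P).1 hP).1, a⟩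
  · rw [x] at hP
    exact sub_eq_zero.2 (c.tr _ s.aU P ((c.on P).1 hP).2)
  · have a := s.lc u0.le (by linarith) R
    have e := z.nn R
    rw [s.sub hM]
    simp only [dsc, Pi.sub_apply, Pi.zero_apply] at a e ⊢
    linarith
  · rw [x] at hO
    have e := (c.on P).1 hO
    have sp : ∀ (f : Pl K → BD K) R, (∑ R ∈ T, f R) R = f P R + (∑ R ∈ T.erase P, f R) R :=
      fun f R => (congrFun (Finset.add_sum_erase T f hP) R).symm
    have tr : ∀ R, Φ (pth κ T v E A M (u + ε)) R = pth κ T v E A M (u + ε) R →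
        (∑ R ∈ T.erase P, Φ (v R)) R = (∑ R ∈ T.erase P, v R) R := fun R a => by
      rw [← map_sum]
      exact c.tr _ (sum_mem fun _ r => s.tU (Finset.mem_of_mem_erase r)) R a
    have ne : ∀ R, On 3 Ω R → R ≠ P → v R P = 0 := fun R a r =>
      ((s.ls.hull R a).2 P e.1).trans (Pl.δ_ne r.symm)
    refine klt_core hK (add_mem (CarZ.car s.ls.kz) (CarZ.car (s.ls.hz P)))
      (add_mem (add_mem (add_mem (add_mem (c.des _ s.kU).car (c.des _ (s.tU hP)).car)
        ((Car K).smul_mem _ (sum_mem fun R r => (c.des _ (s.tU (Finset.mem_of_mem_erase r))).car)))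
        ((Car K).smul_mem _ (c.des _ s.eU).car)) (sub_mem (c.des _ s.aU).car s.smp.car))
      (s.klt P (Finset.mem_insert_of_mem hP)) (s.one hK c e.1) ?_ (s.lc (by linarith) h1)
      (sub_nonneg.2 c.le) (fun R => ?_) fun R a f => ?_
    · have q : (∑ R ∈ T.erase P, v R) P = 0 := by
        rw [Finset.sum_apply]
        exact Finset.sum_eq_zero fun R r =>
          ne R (s.onT (Finset.mem_of_mem_erase r)) (Finset.ne_of_mem_erase r)
      rw [← s.one hK c e.1]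
      simp only [dsc, Pi.sub_apply, Pi.add_apply, Pi.smul_apply, c.tr _ s.kU P e.2, tr P e.2, q,
        c.tr _ s.eU P e.2, c.tr _ (s.tU hP) P e.2, c.tr _ s.aU P e.2,
        ne E s.onE fun a => s.eT (a ▸ hP), smul_zero, add_zero, sub_self]
    · have q : 0 ≤ (∑ R ∈ T.erase P, Φ (v R)) R := Finset.sum_nonneg (s := T.erase P)
        (f := fun R => Φ (v R)) (fun R r => s.nn hK c (s.onT (Finset.mem_of_mem_erase r))
          (s.tU (Finset.mem_of_mem_erase r))) R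
      have q' : 0 ≤ Φ (v E) R := nE R
      rw [← s.sub hM]
      simp only [Pi.add_apply, Pi.smul_apply, smul_eq_mul, sp]
      nlinarith [mul_nonneg h4.le q, mul_nonneg he.le q']
    · have a' := (sub_eq_zero.1 a).symm
      have q : 0 ≤ (∑ R ∈ T.erase P, v R) R := Finset.sum_nonneg (s := T.erase P)
        (f := v) (fun R r => s.ls.nn (s.onT (Finset.mem_of_mem_erase r))) R
      have q' : 0 ≤ v E R := s.ls.nn s.onE R
      simp only [Pi.add_apply, Pi.sub_apply, Pi.smul_apply, smul_eq_mul, sp, tr R a',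
        c.tr _ s.kU R a', c.tr _ s.eU R a', c.tr _ (s.tU hP) R a', c.tr _ s.aU R a'] at f ⊢
      have w1 : η * (∑ R ∈ T.erase P, v R) R = 0 := by
        nlinarith [mul_nonneg h4.le q, mul_nonneg he.le q']
      have w2 : ε * v E R = 0 := by nlinarith [mul_nonneg h4.le q, mul_nonneg he.le q']
      rw [(mul_eq_zero.1 w1).resolve_left h4.ne', (mul_eq_zero.1 w2).resolve_left he.ne']
      simp
  · rw [h3, map_add, map_sum, c.fix H hH (d1.trans (dY.trans h2))]
    simp only [map_smul]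
  · obtain ⟨p, q⟩ := s.ob P hP
    have t0 : 0 ≤ u - δ := sub_nonneg.2 hu
    by_contra f
    have := s.d0
    rcases le_total (b P) 0 with r | r
    · nlinarith [mul_nonneg t0 (neg_nonneg.2 r)]
    · nlinarith [mul_nonneg (show 0 ≤ 1 / 2 - (u - δ) by linarith) r]

end Vale.Agent.P287D.Tj
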